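import Mathlib.Computability.TuringMachine.PostTuringMachine
import Mathlib.Data.Fintype.EquivFin
import Vale.Agent.P113D.Defs

/-!
P113: a finitely supported `TM0` machine over a finite alphabet is a machine given by a table on
natural numbers, with a two-sided tape `ℤ → ℕ`.
-/

namespace Vale.Agent.P113M

open Turing Function Vale.Agent.P113D

theorem exists_code_of_finite (Γ : Type) [Finite Γ] (b : Γ) :
    ∃ (m : ℕ) (e : Γ → ℕ), Injective e ∧ e b = 0 ∧ ∀ a, e a < m := by
  classical
  obtain ⟨m, ⟨f⟩⟩ := Finite.exists_equiv_fin Γ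
  have hm : 0 < m := Fin.pos (f b)
  refine ⟨m, fun a => (Equiv.swap (f b) ⟨0, hm⟩ (f a) : ℕ), ?_, by simp, fun a => Fin.is_lt _⟩
  intro a a' h
  exact f.injective ((Equiv.swap _ _).injective (Fin.ext h))

section

variable {Γ Λ : Type} [Inhabited Γ] [Inhabited Λ]

/-- The table attached to a `TM0` machine; the state `0` is the halting state. -/
noncomputable def table (M : TM0.Machine Γ Λ) (e : Γ → ℕ) (g : Λ → ℕ) (q s : ℕ) : ℕ × ℕ × ℕ :=
  match M (invFun g (q - 1)) (invFun e s) with
  | none => (0, e (invFun e s), 2)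
  | some (q', TM0.Stmt.move Dir.left) => (g q' + 1, e (invFun e s), 0)
  | some (q', TM0.Stmt.move Dir.right) => (g q' + 1, e (invFun e s), 1)
  | some (q', TM0.Stmt.write a) => (g q' + 1, e a, 2)

/-- The configuration `c` of the table machine represents the `TM0` configuration `C`. -/
def Rel (e : Γ → ℕ) (g : Λ → ℕ) (C : TM0.Cfg Γ Λ) (c : Cfg) : Prop :=
  c.1 = g C.q + 1 ∧ ∀ i, c.2.1 (c.2.2 + i) = e (C.Tape.nth i)

theorem step_rel {M : TM0.Machine Γ Λ} {e : Γ → ℕ} {g : Λ → ℕ} (he : Injective e)
    {C : TM0.Cfg Γ Λ} (hg : invFun g (g C.q) = C.q) {c : Cfg} (h : Rel e g C c) :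
    (TM0.step M C = none → (stepC (table M e g) c).1 = 0) ∧
      ∀ C', TM0.step M C = some C' → Rel e g C' (stepC (table M e g) c) := by
  obtain ⟨q, T⟩ := C
  obtain ⟨h1, h2⟩ := h
  have h0 : c.2.1 c.2.2 = e T.head := by simpa using h2 0
  have hi : invFun e (e T.head) = T.head := leftInverse_invFun he _
  simp only at h1 h2 hg
  have ht : table M e g c.1 (c.2.1 c.2.2) =
      match M q T.head with
      | none => (0, e T.head, 2)
      | some (q', TM0.Stmt.move Dir.left) => (g q' + 1, e T.head, 0)
      | some (q', TM0.Stmt.move Dir.right) => (g q' + 1, e T.head, 1)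
      | some (q', TM0.Stmt.write a) => (g q' + 1, e a, 2) := by
    simp only [table, h0, h1, Nat.add_sub_cancel, hg, hi]
  have hu : update c.2.1 c.2.2 (e T.head) = c.2.1 := by rw [← h0, update_eq_self]
  simp only [TM0.step, stepC, ht]
  rcases M q T.head with _ | ⟨q', (_ | _) | a⟩
  · simp
  · refine ⟨by simp, ?_⟩
    rintro C' ⟨rfl⟩
    refine ⟨rfl, fun i => ?_⟩
    simp only [hu, mv, if_true, Tape.move_left_nth]
    rw [← h2]
    exact congrArg _ (by omega)
  · refine ⟨by simp, ?_⟩
    rintro C' ⟨rfl⟩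
    refine ⟨rfl, fun i => ?_⟩
    simp only [hu, mv, if_true, Tape.move_right_nth, one_ne_zero, if_false]
    rw [← h2]
    exact congrArg _ (by omega)
  · refine ⟨by simp, ?_⟩
    rintro C' ⟨rfl⟩
    refine ⟨rfl, fun i => ?_⟩
    simp only [mv, Tape.write_nth]
    by_cases hi0 : i = 0
    · simp [hi0]
    · simp [hi0, ← h2]

theorem init_rel (e : Γ → ℕ) (g : Λ → ℕ) (h0 : e default = 0) (l : List Γ) :
    Rel e g (TM0.init l) (initC (g default + 1) (l.map e)) := by
  refine ⟨rfl, fun i => ?_⟩
  simp only [initC, TM0.init, zero_add, Tape.mk₁, Tape.mk₂]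
  rcases i with n | n
  · simp only [Int.ofNat_eq_natCast, Int.natCast_nonneg, if_true, Int.toNat_natCast, Tape.mk'_nth_nat,
      ListBlank.nth_mk, ← List.getD_default_eq_getI]
    rw [← h0, List.getD_map]
  · rw [if_neg (by omega)]
    change 0 = e ((Tape.mk' (ListBlank.mk []) (ListBlank.mk l)).left.nth n)
    rw [Tape.mk'_left, ListBlank.nth_mk, List.getI_nil, h0]

/-- A finitely supported `TM0` machine over a finite alphabet as a finite table. -/
theorem exists_table [Finite Γ] (M : TM0.Machine Γ Λ) (S : Finset Λ)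
    (hS : TM0.Supports M (S : Set Λ)) :
    ∃ (n : ℕ) (del : ℕ → ℕ → ℕ × ℕ × ℕ) (q0 : ℕ) (e : Γ → ℕ), Bounded n del ∧ q0 < n ∧ (∀ a, e a < n) ∧
      ∀ l : List Γ, HaltsC (fun q => decide (q = 0)) del q0 (l.map e) ↔ (TM0.eval M l).Dom := by
  classical
  obtain ⟨m, e, he, h0, hm⟩ := exists_code_of_finite Γ default
  obtain ⟨k, g0, hg0, -, hk⟩ := exists_code_of_finite S ⟨default, hS.1⟩
  set g : Λ → ℕ := fun q => if h : q ∈ S then g0 ⟨q, h⟩ else k with hgdef
  have hgk : ∀ q, g q ≤ k := by
    intro q
    by_cases h : q ∈ S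
    · simp only [hgdef, h, dif_pos]
      exact (hk _).le
    · simp [hgdef, h]
  have hinv : ∀ q ∈ S, invFun g (g q) = q := by
    intro q hq
    have h1 : g (invFun g (g q)) = g q := invFun_eq ⟨q, rfl⟩
    generalize invFun g (g q) = q' at h1
    by_cases h : q' ∈ S
    · simp only [hgdef, h, hq, dif_pos] at h1
      exact congrArg Subtype.val (hg0 h1)
    · simp only [hgdef, h, hq, dif_pos, dif_neg, not_false_eq_true] at h1
      exact absurd h1 (hk _).ne'
  have hb : ∀ q s, (table M e g q s).1 < m + k + 3 ∧ (table M e g q s).2.1 < m + k + 3 ∧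
      (table M e g q s).2.2 < 3 := by
    intro q s
    unfold table
    rcases M (invFun g (q - 1)) (invFun e s) with _ | ⟨q', (_ | _) | a⟩
    · have := hm (invFun e s)
      simp only
      omega
    · have := hm (invFun e s)
      have := hgk q'
      simp only
      omega
    · have := hm (invFun e s)
      have := hgk q'
      simp only
      omega
    · have := hm a
      have := hgk q'
      simp only
      omega
  refine ⟨m + k + 3, table M e g, g default + 1, e, ⟨by omega, fun q _ s _ => (hb q s).1,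
    fun q _ s _ => (hb q s).2.1, fun q _ s _ => (hb q s).2.2⟩, by have := hgk default; omega,
    fun a => by have := hm a; omega, fun l => ?_⟩
  · have key : ∀ (j : ℕ) (C : TM0.Cfg Γ Λ) (c : Cfg), C.q ∈ S → Rel e g C c →
        ((stepC (table M e g))^[j] c).1 = 0 → (StateTransition.eval (TM0.step M) C).Dom := by
      intro j
      induction j with
      | zero =>
        intro C c _ h hc
        simp only [iterate_zero, id_eq] at hc
        have := h.1
        omega
      | succ j ih =>
        intro C c hC h hc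
        rcases hst : TM0.step M C with _ | C'
        · exact Part.dom_iff_mem.2 ⟨C, StateTransition.mem_eval.2 ⟨Relation.ReflTransGen.refl, hst⟩⟩
        · rw [StateTransition.reaches_eval (Relation.ReflTransGen.single hst)]
          exact ih C' _ (TM0.step_supports M hS hst hC) ((step_rel he (hinv _ hC) h).2 C' hst) hc
    have key' : ∀ (C D : TM0.Cfg Γ Λ), StateTransition.Reaches (TM0.step M) C D →
        ∀ c : Cfg, C.q ∈ S → Rel e g C c →
          ∃ j, D.q ∈ S ∧ Rel e g D ((stepC (table M e g))^[j] c) := by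
      intro C D hCD c hC h
      induction hCD with
      | refl => exact ⟨0, hC, h⟩
      | tail _ hst ih =>
        obtain ⟨j, hj, hr⟩ := ih
        refine ⟨j + 1, TM0.step_supports M hS hst hj, ?_⟩
        rw [iterate_succ_apply']
        exact (step_rel he (hinv _ hj) hr).2 _ hst
    constructor
    · rintro ⟨j, hj⟩
      exact key j _ _ hS.1 (init_rel e g h0 l) (of_decide_eq_true hj)
    · intro hd
      obtain ⟨D, hD⟩ := Part.dom_iff_mem.1 (show (StateTransition.eval (TM0.step M) _).Dom from hd)
      obtain ⟨hr, hn⟩ := StateTransition.mem_eval.1 hD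
      obtain ⟨j, hj, hrel⟩ := key' _ _ hr _ hS.1 (init_rel e g h0 l)
      refine ⟨j + 1, decide_eq_true ?_⟩
      rw [iterate_succ_apply']
      exact (step_rel he (hinv _ hj) hrel).1 hn

end

end Vale.Agent.P113M
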