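import Mathlib.Computability.TuringMachine.ToPartrec
import Mathlib.Computability.RE
import Mathlib.Computability.PartrecBasis
import Mathlib.Data.Fin.VecNotation
import Vale.Agent.P113M.Tm0

/-!
P113: every recursively enumerable predicate is the halting predicate of one finite machine on a
computable family of inputs.
-/

namespace Vale.Agent.P113M

open Turing Function Vale.Agent.P113D

theorem trNat_eq (n : ℕ) (hn : n ≠ 0) : PartrecToTM2.trNat n =
    (if n % 2 = 0 then PartrecToTM2.Γ'.bit0 else PartrecToTM2.Γ'.bit1) ::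
      PartrecToTM2.trNat (n / 2) := by
  have h1 : (n : Num) = cond n.bodd Num.bit1 Num.bit0 ((n / 2 : ℕ) : Num) := by
    rw [← Num.ofNat'_eq, ← Num.ofNat'_eq, ← Nat.div2_val, ← Num.ofNat'_bit, Nat.bit_bodd_div2]
  have h2 : n % 2 = cond n.bodd 1 0 := Nat.mod_two_of_bodd n ▸ by cases n.bodd <;> rfl
  unfold PartrecToTM2.trNat
  rw [h1, h2]
  have h3 : ((n / 2 : ℕ) : Num) = 0 → n / 2 = 0 := fun h => by
    rw [← Num.to_of_nat (n / 2), h]
    rfl
  generalize ((n / 2 : ℕ) : Num) = m at h3
  rcases m with _ | m
  · have h4 := h3 rfl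
    cases hb : n.bodd
    · rw [hb] at h2
      simp only [cond_false] at h2
      omega
    · rfl
  · cases n.bodd <;> rfl

/-- One step of the computation of the binary digits, the highest digit first. -/
def bstep (c0 c1 : ℕ) (p : ℕ × List ℕ) : ℕ × List ℕ :=
  if p.1 = 0 then p else (p.1 / 2, (if p.1 % 2 = 0 then c0 else c1) :: p.2)

theorem primrec_bstep (c0 c1 : ℕ) : Primrec (bstep c0 c1) :=
  Primrec.ite (Primrec.eq.comp Primrec.fst (Primrec.const 0)) Primrec.id
    (Primrec.pair (Primrec.nat_div.comp Primrec.fst (Primrec.const 2))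
      (Primrec.list_cons.comp
        (Primrec.ite (Primrec.eq.comp (Primrec.nat_mod.comp Primrec.fst (Primrec.const 2))
          (Primrec.const 0)) (Primrec.const c0) (Primrec.const c1)) Primrec.snd))

theorem bstep_iterate (g : PartrecToTM2.Γ' → ℕ) (k : ℕ) : ∀ (n : ℕ) (acc : List ℕ), n ≤ k →
    (bstep (g .bit0) (g .bit1))^[k] (n, acc) =
      (0, (PartrecToTM2.trNat n).reverse.map g ++ acc) := by
  induction k with
  | zero =>
    intro n acc h
    obtain rfl : n = 0 := by omega
    simp
  | succ k ih =>
    intro n acc h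
    rw [iterate_succ_apply]
    by_cases hn : n = 0
    · subst hn
      simpa [bstep] using ih 0 acc (by omega)
    · rw [trNat_eq n hn]
      simp only [bstep, hn, if_false]
      rw [ih _ _ (by omega)]
      split_ifs <;> simp

theorem primrec_digits (g : PartrecToTM2.Γ' → ℕ) :
    Primrec fun n => (PartrecToTM2.trNat n).reverse.map g := by
  have h := Primrec.snd.comp (Primrec.nat_iterate (h := fun _ p => bstep (g .bit0) (g .bit1) p)
    Primrec.id (Primrec.pair Primrec.id (Primrec.const ([] : List ℕ)))
    ((primrec_bstep _ _).comp Primrec.snd).to₂)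
  refine h.of_eq fun n => ?_
  simp only [id_eq]
  rw [bstep_iterate g n n [] le_rfl, List.append_nil]

theorem finite_K : Finite PartrecToTM2.K' :=
  Finite.of_surjective (fun i : Fin 4 => (![.main, .rev, .aux, .stack] : Fin 4 → PartrecToTM2.K') i)
    fun k => by
      cases k
      exacts [⟨0, rfl⟩, ⟨1, rfl⟩, ⟨2, rfl⟩, ⟨3, rfl⟩]

/-- The restriction of a finitely supported machine to its support. -/
theorem exists_restrict {Γ Λ : Type} [Inhabited Γ] [Inhabited Λ] (M : TM0.Machine Γ Λ)
    (S : Finset Λ) (hS : TM0.Supports M (S : Set Λ)) :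
    ∃ (Λ' : Type) (_ : Inhabited Λ') (_ : Finite Λ') (N : TM0.Machine Γ Λ'),
      ∀ l, (TM0.eval N l).Dom ↔ (TM0.eval M l).Dom := by
  classical
  let _ : Inhabited S := ⟨⟨default, hS.1⟩⟩
  let g : PointedMap Λ S := ⟨fun q => if h : q ∈ S then ⟨q, h⟩ else default, dif_pos hS.1⟩
  let f : PointedMap Γ Γ := ⟨id, rfl⟩
  refine ⟨S, inferInstance, inferInstance, M.map f f g Subtype.val, fun l => ?_⟩
  have h := StateTransition.tr_eval_dom
    (M.map_respects f f g Subtype.val hS (fun _ => rfl) fun q hq => by
      have hq' : q ∈ S := hq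
      simp [g, hq']) (a₁ := TM0.init l) ⟨hS.1, rfl⟩
  rw [TM0.map_init] at h
  have hl : l.map f = l := List.map_id l
  rw [hl] at h
  exact h

/-- Every recursively enumerable predicate is the halting predicate of a finite `TM0` machine on
a computable family of inputs. -/
theorem exists_tm0 {α : Type} [Primcodable α] {p : α → Prop} (hp : REPred p) :
    ∃ (Γ Λ : Type) (_ : Inhabited Γ) (_ : Inhabited Λ) (_ : Finite Γ) (_ : Finite Λ)
      (N : TM0.Machine Γ Λ) (inp : α → List Γ),
      (∀ dig : Γ → ℕ, Primrec fun z => (inp z).map dig) ∧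
      ∀ z, (TM0.eval N (inp z)).Dom ↔ p z := by
  classical
  let F : ℕ →. ℕ := fun n => (Encodable.decode (α := α) n : Part α).bind fun a =>
    (Part.assert (p a) fun _ => Part.some ()).map Encodable.encode
  have hF : Partrec F := Partrec.nat_iff.2 hp
  obtain ⟨c, hc⟩ := ToPartrec.Code.exists_code (Nat.Partrec'.part_iff₁.2 hF)
  let _ : Inhabited PartrecToTM2.Λ' := ⟨PartrecToTM2.trNormal c PartrecToTM2.Cont'.halt⟩
  let _ : Fintype PartrecToTM2.K' := @Fintype.ofFinite _ finite_K
  obtain ⟨Λ', i1, i2, N, hN⟩ := exists_restrict _ _ (TM1to0.tr_supports _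
    (TM2to1.tr_supports _ (PartrecToTM2.tr_supports c PartrecToTM2.Cont'.halt)))
  refine ⟨_, Λ', TM2to1.Γ'.inhabited, i1, inferInstance, i2, N, fun z => TM2to1.trInit PartrecToTM2.K'.main
    (PartrecToTM2.trList [Encodable.encode z]), fun dig => ?_, fun z => ?_⟩
  · have h := Primrec.list_cons.comp (Primrec.const (dig (true,
      update (fun _ => none) PartrecToTM2.K'.main (some PartrecToTM2.Γ'.cons))))
      ((primrec_digits fun a => dig (false,
        update (fun _ => none) PartrecToTM2.K'.main (some a))).comp (Primrec.encode (α := α)))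
    refine h.of_eq fun z => ?_
    have hr : (PartrecToTM2.trList [Encodable.encode z]).reverse =
        PartrecToTM2.Γ'.cons :: (PartrecToTM2.trNat (Encodable.encode z)).reverse := by simp
    unfold TM2to1.trInit
    simp only [hr]
    refine congrArg₂ List.cons rfl ?_
    exact (List.map_map (g := dig)).symm
  · rw [hN, TM1to0.tr_eval]
    refine (TM2to1.tr_eval_dom _ _ _).trans ?_
    have hi : TM2.init PartrecToTM2.K'.main (PartrecToTM2.trList [Encodable.encode z]) =
        PartrecToTM2.init c [Encodable.encode z] := by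
      unfold TM2.init PartrecToTM2.init
      congr 1
      funext k
      cases k <;> rfl
    have h1 := PartrecToTM2.tr_eval c [Encodable.encode z]
    have h2 := hc ⟨[Encodable.encode z], rfl⟩
    simp only at h2
    rw [h2] at h1
    have h3 : (TM2.eval PartrecToTM2.tr PartrecToTM2.K'.main
        (PartrecToTM2.trList [Encodable.encode z])).Dom ↔ (F (Encodable.encode z)).Dom := by
      change (StateTransition.eval _ _).Dom ↔ _
      rw [hi]
      exact iff_of_eq (congrArg Part.Dom h1)
    refine h3.trans ?_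
    simp [F, Part.assert]

/-- Every recursively enumerable predicate is the halting predicate of one finite table on a
primitive recursive family of inputs. -/
theorem exists_universal {α : Type} [Primcodable α] {p : α → Prop} (hp : REPred p) :
    ∃ (n : ℕ) (halt : ℕ → Bool) (del : ℕ → ℕ → ℕ × ℕ × ℕ) (q0 : ℕ) (inp : α → List ℕ),
      Bounded n del ∧ q0 < n ∧ Primrec inp ∧ (∀ z, ∀ s ∈ inp z, s < n) ∧
      ∀ z, HaltsC halt del q0 (inp z) ↔ p z := by
  classical
  obtain ⟨Γ, Λ, _, _, _, _, N, inp, h1, h2⟩ := exists_tm0 hp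
  let _ := Fintype.ofFinite Λ
  obtain ⟨n, del, q0, e, hb, hq, he, h⟩ :=
    exists_table N Finset.univ (by simpa using TM0.univ_supports N)
  refine ⟨n, _, del, q0, fun z => (inp z).map e, hb, hq, h1 e, fun z s hs => ?_,
    fun z => (h _).trans (h2 z)⟩
  obtain ⟨a, -, rfl⟩ := List.mem_map.1 hs
  exact he a

end Vale.Agent.P113M
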